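import Crest.Agent.X262.Wv65.Fin2
import Crest.Agent.X262.Drop30.Main
import Crest.Agent.X262.Ord23.Main

/-!
# Row 262, road B, WDVV (helper65), part 4: the associativity equation
-/

set_option autoImplicit false

namespace Crest.Agent.X262.Wv65

/-- **DROP** -/
theorem dropU {J : Type} [Fintype J] [DecidableEq J] (io : J → Type) [∀ j, Fintype (io j)]
    [∀ j, DecidableEq (io j)] : DropU io := dropU_of Drop30.dropStmt

/-- **WDVV** -/
theorem wdvvStmt : Vb.WdvvStmt := wdvv_of3 dropU fun _ _ _ => Ord23.ordStmt

end Crest.Agent.X262.Wv65
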