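import Crest.Agent.X262.Wv65.Bas
import Crest.Agent.X262.Drop30.Defs
import Crest.Agent.X262.Pbd43.Main
import Crest.Agent.X262.Cnt37.Main
import Crest.Agent.X262.Vb10.Amal

/-!
# Row 262, road B, WDVV1 (helper65), part 1

`wdvv_of` : the associativity equation from SPLIT, DROP, GEN, ORD, the existence of norming points
and the rank statement.
-/

set_option autoImplicit false
set_option linter.unusedSectionVars false

noncomputable section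

namespace Crest.Agent.X262.Wv65

open Crest.Agent.X277 Crest.Agent.X277.BD Crest.Agent.X277.Pst Crest.Agent.X277.BD.Cyc Polynomial
open Crest.Agent.X262.Geo (od od_eq_zero essFT_Rf)
open Crest.Agent.X262.Hb Crest.Agent.X262.Vb
open Crest.Agent.X262.Sym65 (sm)
open Crest.Agent.X262.Wd54 (ful Lat ten ins GUniv)
open Crest.Agent.X262.Drop30 (Mi Mo Shp IsTy kT Chart Univ2 Small)
open Crest.Agent.X262.Val40 (dn rf)
open Crest.Agent.X262.Vb10 (deg_comp deg_equiv eft_of_deg)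

variable {J : Type} [Fintype J] [DecidableEq J] {io : J → Type} [∀ j, Fintype (io j)]
  [∀ j, DecidableEq (io j)] {A : Type} [Fintype A] (B : Th) (T : Tgt io A)

/-- the conclusion of `LatStmt` -/
def LatN (N : ℕ) : Prop :=
  ∀ {I I' M E : Type} [Fintype I] [Fintype I'] [Field E] [Algebra ℂ E] [Algebra.EssFiniteType ℂ E]
    (z : Cfg io I E) (m : M → I) (z' : Cfg io I' E) (m' : M → I') (Φ : MFam B io M) (ω : B.H E),
    MCls B T Φ → Lat N z m z' m' → ful B T z m Φ ω = ful B T z' m' Φ ω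

/-- the conclusion of `SplitStmt` -/
def SplN {ι : Type} [Fintype ι] (e e' : ι → Fam B io) (d₁ d₂ : J → ℕ) (N : ℕ) : Prop :=
  ∀ {M₁ M₂ k E I₁ I₂ : Type} [Fintype M₁] [Fintype M₂] [Field k] [Algebra ℂ k] [Field E]
    [Algebra ℂ E] [Algebra.EssFiniteType ℂ E] [Fintype I₁] [Fintype I₂] (ζ₁ : Dat io d₁ M₁ k)
    (ζ₂ : Dat io d₂ M₂ k) (n₁ : M₁) (n₂ : M₂), GUniv ζ₁ ζ₂ n₁ n₂ →
    ∀ (θ : k →ₐ[ℂ] E) (ξ₁ : Dat io d₁ I₁ E) (ξ₂ : Dat io d₂ I₂ E) (m₁ : M₁ → I₁) (m₂ : M₂ → I₂),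
    0 < deg θ → (ζ₁.map θ).Eqv (ξ₁.res m₁) → (ζ₂.map θ).Eqv (ξ₂.res m₂) → ξ₁.NrmUp N →
    ξ₂.NrmUp N → ∀ (Φ₁ : MFam B io M₁) (Φ₂ : MFam B io M₂), MCls B T Φ₁ → MCls B T Φ₂ →
    ful B T (Wd54.gl ξ₁ ξ₂ (m₁ n₁) (m₂ n₂)) (Sum.map m₁ m₂) (ten Φ₁ Φ₂) 1 =
      deg θ * ∑ l, GW B T d₁ (ins Φ₁ n₁ (e l)) * GW B T d₂ (ins Φ₂ n₂ (e' l))

variable (io) in
/-- the form of `Drop30.DropStmt` which is used here -/
def DropU : Prop :=
  ∀ (d : J → ℕ) (N : ℕ) (M I K L : Type) [Fintype M] [Fintype I] [Field K] [Algebra ℂ K] [Field L]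
    [Algebra ℂ L] [Algebra.EssFiniteType ℂ L] (x₀ : Dat io d M K) (o a b e : M) (A R : ℂ) (B : K),
    Shp x₀ o a b e A R B → x₀.Univ →
    ∀ (θ : K →ₐ[ℂ] L) (ξ : Dat io d I L) (g : M → I), ξ.res g = x₀.map θ → ξ.NrmUp N →
    ∀ W : RZ ℂ L, Dvs W → W.v (θ (B - algebraMap ℂ K A)) < 1 →
      Small io N (ξ.cfg.red (plV W)) g (mdim io d (Fintype.card M) - 1) ∨
      ∃ (m n : J → ℕ) (S : Set M), IsTy d m n S o a b e ∧ ∀ x ∈ kT x₀ A R B m S, θ x ∈ W.1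

variable (io) in
/-- the form of `Drop30.GenStmt` which is used here -/
def GenU : Prop :=
  ∀ (d m n : J → ℕ) (N : ℕ) (M I K L k k' I₁ I₂ : Type) [Fintype M] [Fintype I] [Fintype I₁]
    [Fintype I₂] [Field K] [Algebra ℂ K] [Field L] [Algebra ℂ L] [Field k] [Algebra ℂ k] [Field k']
    [Algebra ℂ k'] [Algebra.EssFiniteType ℂ L] (x₀ : Dat io d M K) (o a b e : M) (A R : ℂ) (B : K)
    (S : Set M), Shp x₀ o a b e A R B → IsTy d m n S o a b e → x₀.Univ →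
    ∀ (ι : k →ₐ[ℂ] K) (η₁ : Dat io m (Mi S) k) (η₂ : Dat io n (Mo S) k), Chart x₀ A R B S ι η₁ η₂ →
    ∀ (θ : K →ₐ[ℂ] L) (ξ : Dat io d I L) (g : M → I), ξ.res g = x₀.map θ → ξ.NrmUp N →
    ∀ (γ : k →ₐ[ℂ] k') (ξ₁ : Dat io m I₁ k') (ξ₂ : Dat io n I₂ k') (g₁ : Mi S → I₁)
      (g₂ : Mo S → I₂), deg γ ≠ 0 → ξ₁.res g₁ = η₁.map γ → ξ₂.res g₂ = η₂.map γ → ξ₁.NrmUp N →
      ξ₂.NrmUp N →
    ∀ (W : RZ ℂ L) (hW : ∀ x, (θ.comp ι) x ∈ W.1), Dvs W → W.v (θ (B - algebraMap ℂ K A)) < 1 →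
      ∃ (E : Type) (_ : Field E) (_ : Algebra ℂ E) (α : Rf W →ₐ[ℂ] E) (β : k' →ₐ[ℂ] E),
        deg α ≠ 0 ∧ β.comp γ = α.comp (Wd.rt (θ.comp ι) W hW) ∧
        Lat N ((ξ.cfg.red (plV W)).map α) g ((Drop30.gl ξ₁ (g₁ none) ξ₂ (g₂ none)).map β)
          (Drop30.mk S g₁ g₂)

variable {B T} {N : ℕ} {ι : Type} [Fintype ι] {e e' : ι → Fam B io}

theorem SplN.mono {d₁ d₂ : J → ℕ} (h : SplN B T e e' d₁ d₂ N) {N' : ℕ} (hN : N ≤ N') :
    SplN B T e e' d₁ d₂ N' := fun ζ₁ ζ₂ n₁ n₂ hu θ ξ₁ ξ₂ m₁ m₂ h0 h1 h2 h3 h4 =>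
  h ζ₁ ζ₂ n₁ n₂ hu θ ξ₁ ξ₂ m₁ m₂ h0 h1 h2 (Vb37.nrmUp_mono h3 hN) (Vb37.nrmUp_mono h4 hN)

section Cmp

variable {I I' M E₀ k E : Type} [Fintype I] [Fintype I'] [Field E₀] [Algebra ℂ E₀]
  [Algebra.EssFiniteType ℂ E₀] [Field k] [Algebra ℂ k] [Algebra.EssFiniteType ℂ k] [Field E]
  [Algebra ℂ E] {z : Cfg io I E₀} {m : M → I} {z' : Cfg io I' k} {m' : M → I'} {Φ : MFam B io M}

theorem ful_cmp (hB : B.Ax) (hL : LatN B T N) (hΦ : MCls B T Φ) {α : E₀ →ₐ[ℂ] E} {β : k →ₐ[ℂ] E}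
    (hα : deg α ≠ 0) (h : Lat N (z.map α) m (z'.map β) m') :
    deg α * ful B T z m Φ 1 = deg β * ful B T z' m' Φ 1 := by
  have := eft_of_deg α (Nat.pos_of_ne_zero hα)
  rw [← Pbd43.ful_map hB T α (fun q => (nz_map α).1 (h.nz.1 q)) m hΦ,
    ← Pbd43.ful_map hB T β (fun q => (nz_map β).1 (h.nz.2 q)) m' hΦ, map_one, map_one]
  exact hL _ _ _ _ _ _ hΦ h

/-- small configurations do not contribute -/
theorem ful_small (hB : B.Ax) (hL : LatN B T N) (hΦ : MCls B T Φ) {r : ℕ} (hr : r ≤ dim ℂ E₀)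
    (h : Small io N z m r) : ful B T z m Φ 1 = 0 := by
  obtain ⟨E, k, _, _, _, _, _, α, β, I', _, z', m', hα, h1, h2⟩ := h
  have := eft_of_deg α (Nat.pos_of_ne_zero hα)
  have h3 := ful_cmp hB hL hΦ hα h2
  have h4 : deg β = 0 := by
    by_contra h4
    rw [trdeg_eq_dim, Nat.cast_lt, ← (deg_pos_iff β).1 (Nat.pos_of_ne_zero h4),
      (deg_pos_iff α).1 (Nat.pos_of_ne_zero hα)] at h1
    omega
  rw [h4, Nat.cast_zero, zero_mul] at h3
  exact (mul_eq_zero.1 h3).resolve_left (Nat.cast_ne_zero.2 hα)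

end Cmp

section Ty

variable {M : Type} [Fintype M] (β : M → Fam B io) (P : M → Prop) [DecidablePred P]

/-- the insertions at the marks of one component -/
def sub : MFam B io (Option {i // P i}) :=
  fun E _ _ y => prd (fun i : {i // P i} => β i) E fun i => y (some i)

theorem ins_sub (ε : Fam B io) :
    ins (sub β P) none ε = prd fun q : Option {i // P i} => q.elim ε fun i => β i := by
  funext E _ _ y
  rw [prd, Fintype.prod_option, mul_comm]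
  rfl

variable {β} in
theorem mcls_sub (h : ∀ i, Cls B T (β i)) : MCls B T (sub β P) :=
  (MCls.prd fun i : {i // P i} => h i).comp some

theorem prd_mk (S : Set M) [DecidablePred (· ∈ S)] {I₁ I₂ : Type} (g₁ : Mi S → I₁) (g₂ : Mo S → I₂)
    (E : Type) [Field E] [Algebra ℂ E] (y : I₁ ⊕ I₂ → Pnt io E) :
    prd β E (fun q => y (Drop30.mk S g₁ g₂ q)) =
      ten (sub β (· ∈ S)) (sub β (· ∉ S)) E fun q => y (Sum.map g₁ g₂ q) := by
  rw [prd, ← Fintype.prod_subtype_mul_prod_subtype (· ∈ S)]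
  refine congrArg₂ _ (Finset.prod_congr rfl fun i _ => ?_) (Finset.prod_congr rfl fun i _ => ?_)
  · rw [Drop30.mk, dif_pos i.2]
    rfl
  · rw [Drop30.mk, dif_neg i.2]
    rfl

end Ty

theorem guniv {m n : J → ℕ} {M₁ M₂ k : Type} [Fintype M₁] [Fintype M₂] [Field k] [Algebra ℂ k]
    [Algebra.EssFiniteType ℂ k] {η₁ : Dat io m M₁ k} {η₂ : Dat io n M₂ k} {n₁ a b : M₁}
    {o n₂ e : M₂} (h : Univ2 η₁ n₁ a b η₂ o n₂ e) : GUniv η₁ η₂ n₁ n₂ where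
  n1 := ⟨_, _, _, h.nml₁⟩
  n2 := ⟨_, _, _, h.nml₂⟩
  par := by
    have := h.par
    rwa [← h.nml₁.1, ← h.nml₂.2.1] at this
  gen := h.gen
  dm := by
    have := h.trd
    rw [trdeg_eq_dim] at this
    exact_mod_cast this

/-- the number of a component of the boundary -/
theorem ful_gen (hB : B.Ax) (hG : GenU io) (hE : ExNrm) (hL : LatN B T N)
    {d m n : J → ℕ} (hS : SplN B T e e' m n N) {M I K L k : Type} [Fintype M] [Fintype I]
    [Field K] [Algebra ℂ K] [Field L] [Algebra ℂ L] [Algebra.EssFiniteType ℂ L] [Field k]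
    [Algebra ℂ k] [Algebra.EssFiniteType ℂ k] {x₀ : Dat io d M K} {o a b c : M} {A R : ℂ} {t : K}
    {S : Set M} [DecidablePred (· ∈ S)] (hs : Shp x₀ o a b c A R t) (ht : IsTy d m n S o a b c)
    (h0 : x₀.Univ) {γ : k →ₐ[ℂ] K} {η₁ : Dat io m (Mi S) k} {η₂ : Dat io n (Mo S) k}
    (hc : Chart x₀ A R t S γ η₁ η₂) (hu : GUniv η₁ η₂ none none) {θ : K →ₐ[ℂ] L}
    {ξ : Dat io d I L} {g : M → I} (hξ : ξ.res g = x₀.map θ) (hN : ξ.NrmUp N) {β : M → Fam B io}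
    (hβ : ∀ i, Cls B T (β i)) {W : RZ ℂ L} (hW : Dvs W) (h1 : ∀ x, (θ.comp γ) x ∈ W.1)
    (h2 : W.v (θ (t - algebraMap ℂ K A)) < 1) :
    ful B T (ξ.cfg.red (plV W)) g (prd β) 1 = deg (Wd.rt (θ.comp γ) W h1) *
      ∑ l, GW B T m (ins (sub β (· ∈ S)) none (e l)) * GW B T n (ins (sub β (· ∉ S)) none (e' l)) := by
  have := essFT_Rf hW
  obtain ⟨k₁, _, _, _, θ₁, n₁, ζ₁, a1, a2, a3⟩ := hE η₁ N
  obtain ⟨k₂, _, _, _, θ₂, n₂, ζ₂, b1, b2, b3⟩ := hE (η₂.map θ₁) N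
  have c1 : 0 < deg (θ₂.comp θ₁) := by rw [deg_comp]; exact Nat.mul_pos a1 b1
  have c2 : (ζ₁.map θ₂).res Sum.inl = η₁.map (θ₂.comp θ₁) := by
    rw [← Vb37.dmap_map, ← a2]; rfl
  rw [Vb37.dmap_map] at b2
  have c3 := Vb37.nrmUp_map a3 θ₂
  obtain ⟨E, _, _, α, δ, d1, d2, d3⟩ := hG d m n N M I K L k k₂ _ _ x₀ o a b c A R t S hs ht h0 γ η₁
    η₂ hc θ ξ g hξ hN _ _ _ _ _ c1.ne' c2 b2 c3 b3 W h1 hW h2
  have e1 := ful_cmp hB hL (MCls.prd hβ) d1 d3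
  have e2 := hS η₁ η₂ none none hu _ _ _ Sum.inl Sum.inl c1 (c2 ▸ Vb37.eqv_refl _)
    (b2 ▸ Vb37.eqv_refl _) c3 b3 _ _ (mcls_sub (· ∈ S) hβ) (mcls_sub (· ∉ S) hβ)
  rw [ful_congr (prd_mk β S _ _)] at e1
  refine mul_left_cancel₀ (Nat.cast_ne_zero.2 d1) (e1.trans ((congrArg _ e2).trans ?_))
  have e3 := congrArg deg d2
  rw [deg_comp _ δ, deg_comp _ α] at e3
  rw [← mul_assoc, ← mul_assoc, ← Nat.cast_mul, ← Nat.cast_mul, mul_comm (deg δ), e3, mul_comm (deg α)]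

theorem deg_rt {k K L : Type} [Field k] [Algebra ℂ k] [Field K] [Algebra ℂ K] [Field L]
    [Algebra ℂ L] {γ : k →ₐ[ℂ] K} {θ : K →ₐ[ℂ] L} {V : RZ ℂ K} {W : RZ ℂ L} (h : V = dn θ W)
    {hV : ∀ x, γ x ∈ V.1} (hb : Function.Bijective (Wd.rt γ V hV))
    (hW : ∀ x, (θ.comp γ) x ∈ W.1) : deg (Wd.rt (θ.comp γ) W hW) = deg (rf θ W) := by
  subst h
  rw [show Wd.rt (θ.comp γ) W hW = (rf θ W).comp (AlgEquiv.ofBijective _ hb : k →ₐ[ℂ] _) from
    AlgHom.ext fun x => (Val40.rf_r θ W (γ x)).symm, deg_comp, deg_equiv, one_mul]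

section Side

variable {M : Type} [Fintype M] [DecidableEq M]

/-- the inner marks -/
def SS (S : Finset M) : Set (Fin 4 ⊕ M) := {q | q.elim (fun i => i.val < 2) (· ∈ S)}

theorem inl_mem {S : Finset M} {i : Fin 4} : Sum.inl i ∈ SS S ↔ i.val < 2 := Iff.rfl

theorem inr_mem {S : Finset M} {q : M} : Sum.inr q ∈ SS S ↔ q ∈ S := Iff.rfl

/-- the marks of the inner component -/
def e₁ (S : Finset M) : Fin 3 ⊕ {q // q ∈ S} ≃ Mi (SS S) :=
  Equiv.ofBijective (Sum.elim ![some ⟨.inl 0, inl_mem.2 (by decide)⟩,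
    some ⟨.inl 1, inl_mem.2 (by decide)⟩, none] fun q => some ⟨.inr q, q.2⟩) <| by
  constructor
  · rintro (a | a) (b | b) h
    · fin_cases a <;> fin_cases b <;> simp at h ⊢
    · fin_cases a <;> cases h
    · fin_cases b <;> cases h
    · exact congrArg _ (Subtype.ext (Sum.inr.inj (congrArg Subtype.val (Option.some.inj h))))
  · rintro (_ | ⟨i | q, h⟩)
    · exact ⟨.inl 2, rfl⟩
    · fin_cases i
      exacts [⟨.inl 0, rfl⟩, ⟨.inl 1, rfl⟩, absurd (inl_mem.1 h) (by decide),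
        absurd (inl_mem.1 h) (by decide)]
    · exact ⟨.inr ⟨q, h⟩, rfl⟩

/-- the marks of the outer component -/
def e₂ (S : Finset M) : Fin 3 ⊕ {q // q ∉ S} ≃ Mo (SS S) :=
  Equiv.ofBijective (Sum.elim ![none, some ⟨.inl 2, inl_mem.not.2 (by decide)⟩,
    some ⟨.inl 3, inl_mem.not.2 (by decide)⟩] fun q => some ⟨.inr q, q.2⟩) <| by
  constructor
  · rintro (a | a) (b | b) h
    · fin_cases a <;> fin_cases b <;> simp at h ⊢
    · fin_cases a <;> cases h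
    · fin_cases b <;> cases h
    · exact congrArg _ (Subtype.ext (Sum.inr.inj (congrArg Subtype.val (Option.some.inj h))))
  · rintro (_ | ⟨i | q, h⟩)
    · exact ⟨.inl 0, rfl⟩
    · fin_cases i
      exacts [absurd (inl_mem.2 (by decide)) h, absurd (inl_mem.2 (by decide)) h, ⟨.inl 1, rfl⟩,
        ⟨.inl 2, rfl⟩]
    · exact ⟨.inr ⟨q, h⟩, rfl⟩

variable {d : J → ℕ}

theorem isTy (τ : Finset.Iic d × Finset M) :
    IsTy d τ.1 (d - τ.1) (SS τ.2) (.inl 3) (.inl 1) (.inl 0) (.inl 2) where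
  add j := Nat.add_sub_cancel' (Finset.mem_Iic.1 τ.1.2 j)
  a := inl_mem.2 (by decide)
  b := inl_mem.2 (by decide)
  o := inl_mem.not.2 (by decide)
  e := inl_mem.not.2 (by decide)

theorem exists_ty {m n : J → ℕ} {S : Set (Fin 4 ⊕ M)}
    (h : IsTy d m n S (.inl 3) (.inl 1) (.inl 0) (.inl 2)) :
    ∃ τ : Finset.Iic d × Finset M, m = τ.1 ∧ S = SS τ.2 := by
  classical
  refine ⟨(⟨m, Finset.mem_Iic.2 fun j => Nat.le.intro (h.add j)⟩,
    Finset.univ.filter fun q => .inr q ∈ S), rfl, Set.ext ?_⟩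
  rintro (i | q)
  · fin_cases i
    exacts [iff_of_true h.b (inl_mem.2 (by decide)), iff_of_true h.a (inl_mem.2 (by decide)),
      iff_of_false h.e (inl_mem.not.2 (by decide)), iff_of_false h.o (inl_mem.not.2 (by decide))]
  · simp [inr_mem]

/-- **one side** of the associativity equation -/
theorem side (hB : B.Ax) (hD : DropU io) (hG : GenU io)
    (hO : Drop30.OrdStmt io) (hE : ExNrm) (hL : LatN B T N)
    (hS : ∀ d₁ ∈ Finset.Iic d, SplN B T e e' d₁ (d - d₁) N) {I K L : Type} [Fintype I] [Field K]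
    [Algebra ℂ K] [Field L] [Algebra ℂ L] [Algebra.EssFiniteType ℂ L]
    {x₀ : Dat io d (Fin 4 ⊕ M) K} {A R : ℂ} {t : K}
    (hs : Shp x₀ (.inl 3) (.inl 1) (.inl 0) (.inl 2) A R t) (hu : x₀.Univ) {θ : K →ₐ[ℂ] L}
    (hθ : 0 < deg θ) {ξ : Dat io d I L} {g : Fin 4 ⊕ M → I} (hξ : ξ.res g = x₀.map θ)
    (hN : ξ.NrmUp N) {x : Fin 4 → Fam B io} {α : M → Fam B io} (hx : ∀ i, Cls B T (x i))
    (hα : ∀ q, Cls B T (α q)) :
    (sm (pr ℂ (θ (t - algebraMap ℂ K A)) ⊓ 0) fun W =>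
      ful B T (ξ.cfg.red (plV W)) g (prd (Sum.elim x α)) 1) =
      -(deg θ * wd B T d e e' (x 0) (x 1) (x 2) (x 3) α) := by
  classical
  have := Vb37.univ_essFT hu
  have hβ : ∀ q, Cls B T (Sum.elim x α q) := by rintro (i | q); exacts [hx i, hα q]
  obtain ⟨h1, h2⟩ := hO d _ K x₀ _ _ _ _ A R t hs hu
  choose V hV hV1 hV2 hV3 hV4 using fun τ : Finset.Iic d × Finset M => (h1 _ _ _ (isTy τ)).2
  set s := t - algebraMap ℂ K A with hs'
  have hs0 : s ≠ 0 := sub_ne_zero.2 hs.ab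
  have hlt : ∀ τ, (V τ).v s < 1 := fun τ => by
    rw [← val_pr hs0, ← val_zero (V τ), ← Geo.od_lt_iff (hV1 τ), hV2, map_zero]
    decide
  have hinj : Function.Injective V := fun τ τ' h => by
    obtain ⟨h3, h4⟩ := h2 _ _ _ _ _ _ (isTy τ) (isTy τ') (V τ) (hlt τ) (fun y hy => hV τ ⟨y, hy⟩)
      fun y hy => h ▸ hV τ' ⟨y, hy⟩
    exact Prod.ext (Subtype.ext h3) (Finset.ext fun q => by rw [← inr_mem, h4, inr_mem])
  let G : Finset.Iic d × Finset M → ℂ := fun τ => ∑ l,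
    gw3 B T τ.1 ![x 0, x 1, e l] (fun q : {q // q ∈ τ.2} => α q) *
      gw3 B T (d - τ.1) ![e' l, x 2, x 3] (fun q : {q // q ∉ τ.2} => α q)
  let F : RZ ℂ K → ℂ := fun U => ∑ τ, if V τ = U then G τ else 0
  have hF : ∀ τ, F (V τ) = G τ := fun τ => by simp [F, hinj.eq_iff]
  rw [← pb_pr, ← map_zero (pb θ), ← pb_inf, sm, Val40.finsum_pull θ _ F _ fun W hW hW' h0 => ?_]
  · rw [← mul_neg]
    refine congrArg _ ((Sym65.sm_sum (S := Finset.univ.image V) (fun U hU => ?_)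
      fun U _ hU => ?_).trans ?_)
    · obtain ⟨τ, -, rfl⟩ := Finset.mem_image.1 hU
      exact hV1 τ
    · by_contra h3
      refine hU (mul_eq_zero_of_right _ (Finset.sum_eq_zero fun τ _ => if_neg fun h4 => h3 ?_))
      exact Finset.mem_image.2 ⟨τ, Finset.mem_univ _, h4⟩
    · rw [Finset.sum_image hinj.injOn, wd, ← Finset.sum_coe_sort (Finset.Iic d), ← Fintype.sum_prod_type',
        ← Finset.sum_neg_distrib]
      refine Finset.sum_congr rfl fun τ _ => ?_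
      rw [hF, (Geo.od_eq_iff (hV1 τ) (b := pr ℂ s)).2 (by
        rw [val_inf, val_zero, min_eq_left (by rw [val_pr hs0]; exact (hlt τ).le)]), hV2]
      simp [G]
  have := essFT_Rf hW
  have h3 : (dn θ W).v s < 1 := lt_of_not_ge fun h3 => h0 ((od_eq_zero hW').2 (by
    rw [val_inf, val_zero, min_eq_right (by rwa [val_pr hs0])]))
  have h4 := Val40.v_dn_lt_one.1 h3
  by_cases h5 : ∃ τ, V τ = dn θ W
  · obtain ⟨τ, h5⟩ := h5
    have := Wd.essFT_of_hom (kT x₀ A R t τ.1 (SS τ.2)).val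
    obtain ⟨η₁, η₂, h6, h7⟩ := (h1 _ _ _ (isTy τ)).1
    have h8 : ∀ y, (θ.comp (kT x₀ A R t τ.1 (SS τ.2)).val) y ∈ W.1 := fun y =>
      (Val40.mem_dn (α := θ) (W := W)).1 (h5 ▸ hV τ y)
    rw [ful_gen hB hG hE hL (hS _ τ.1.2) hs (isTy τ) hu h6 (guniv h7) hξ hN hβ hW h8 h4,
      deg_rt h5 (hV3 τ), ← congrArg F h5, hF]
    refine congrArg _ (Finset.sum_congr rfl fun l _ => ?_)
    rw [ins_sub, ins_sub, gw3, gw3]
    refine congrArg₂ _ (gw_prd (e₁ τ.2) ?_) (gw_prd (e₂ τ.2) ?_)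
    · rintro (i | q)
      · fin_cases i <;> rfl
      · rfl
    · rintro (i | q)
      · fin_cases i <;> rfl
      · rfl
  · rw [show F (dn θ W) = 0 from Finset.sum_eq_zero fun τ _ => if_neg fun h => h5 ⟨τ, h⟩, mul_zero]
    rcases hD d N _ I K L x₀ _ _ _ _ A R t hs hu θ ξ g hξ hN W hW h4 with h6 | ⟨m, n, S, h6, h7⟩
    · refine ful_small hB hL (MCls.prd hβ) ?_ h6
      have h8 := hu.2.2
      rw [trdeg_eq_dim, Nat.cast_inj, ← (deg_pos_iff θ).1 hθ, Geo.dim_Rf' hW] at h8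
      omega
    · obtain ⟨τ, rfl, rfl⟩ := exists_ty h6
      exact (h5 ⟨τ, (hV4 τ _ h7 h3).symm⟩).elim

end Side

/-- **WDVV** -/
theorem wdvv_of (hS : Wd54.SplitStmt)
    (hD : ∀ {J : Type} [Fintype J] [DecidableEq J] (io : J → Type) [∀ j, Fintype (io j)]
      [∀ j, DecidableEq (io j)], DropU io)
    (hG : ∀ {J : Type} [Fintype J] [DecidableEq J] (io : J → Type) [∀ j, Fintype (io j)]
      [∀ j, DecidableEq (io j)], GenU io)
    (hO : ∀ {J : Type} [Fintype J] [DecidableEq J] (io : J → Type) [∀ j, Fintype (io j)]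
      [∀ j, DecidableEq (io j)], Drop30.OrdStmt io)
    (hE : ExNrm) (hR : RankStmt) : WdvvStmt := by
  intro B hB J _ _ io _ _ A _ T c hT ι _ e e' he he' hd d x₁ x₂ x₃ x₄ h₁ h₂ h₃ h₄ M _ _ α hα
  by_cases hj : ∀ j, Nonempty (io j) ∧ (d j = 0 ∨ Nontrivial (io j))
  swap
  · obtain ⟨j, hj⟩ := not_forall.1 hj
    rw [wd_junk hj, wd_junk hj]
  obtain ⟨N₁, n1⟩ := Wd54.latStmt B hB T c hT
  obtain ⟨N₂, n2⟩ := rk_of hR (hT.good d)
  choose N₃ n3 using fun d₁ => hS B hB T c hT e e' he he' hd d₁ (d - d₁)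
  let N := max (max N₁ N₂) ((Finset.Iic d).sup N₃)
  have hL : LatN B T N := n1 N ((le_max_left _ _).trans (le_max_left _ _))
  have hS' : ∀ d₁ ∈ Finset.Iic d, SplN B T e e' d₁ (d - d₁) N := fun d₁ h =>
    SplN.mono (n3 d₁) ((Finset.le_sup h).trans (le_max_right _ _))
  obtain ⟨K, _, _, _, x', hu'⟩ := Vb37.exists_univ' (M := Fin 4 ⊕ M) hj (by simp; omega)
  obtain ⟨x₀, -, hn, hu⟩ := Vb37.univ_nm3 hu' (a := .inl 3) (b := .inl 1) (c := .inl 2)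
    (by simp) (by simp) (by simp)
  obtain ⟨t, ht, htr⟩ := Vb37.univ_x hu hn (q := .inl 0) (by simp)
  have hne : ∀ a : ℂ, t ≠ algebraMap ℂ K a := fun a h => htr (h ▸ isAlgebraic_algebraMap a)
  obtain ⟨L, _, _, _, θ, n, ξ, hθ, hξ, hN⟩ := hE x₀ N
  have hz : ξ.cfg.NZ := fun q => Vb37.nz_pt ξ _
  have hon : ¬ξ.cfg.On T := fun h => (Cnt37.notOnStmt T hT.1).2 x₀ hu (.inl 0) <| by
    have h1 : T.On ((ξ.res Sum.inl).cfg.y (.inl 0)) := h _
    rw [hξ, Vb37.cfg_map] at h1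
    exact (on_map T θ).1 h1
  let σ : Fin 4 ⊕ M ≃ Fin 4 ⊕ M := (Equiv.swap 1 2).sumCongr (Equiv.refl M)
  have s1 : Shp x₀ (.inl 3) (.inl 1) (.inl 0) (.inl 2) 0 1 t :=
    ⟨hn.1, by rw [map_zero]; exact hn.2.1, ht, by rw [map_one]; exact hn.2.2, hne 0, one_ne_zero⟩
  have s2 : Shp (x₀.res σ) (.inl 3) (.inl 1) (.inl 0) (.inl 2) 1 0 t :=
    ⟨hn.1, by rw [map_one]; exact hn.2.2, ht, by rw [map_zero]; exact hn.2.1, hne 1, zero_ne_one⟩
  have c1 : ∀ i, Cls B T (![x₁, x₂, x₃, x₄] i) := fun i => by fin_cases i <;> assumption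
  have c2 : ∀ i, Cls B T (![x₁, x₃, x₂, x₄] i) := fun i => by fin_cases i <;> assumption
  have r1 := side hB (hD io) (hG io) (hO io) hE hL hS' s1 hu hθ hξ hN c1 hα
  have r2 := side hB (hD io) (hG io) (hO io) hE hL hS' s2 (Vb37.univ_res_equiv hu σ) hθ
    (ξ := ξ) (g := fun q => Sum.inl (σ q)) (congrArg (Dat.res σ) hξ) hN c2 hα
  have r3 : ∀ (E : Type) [Field E] [Algebra ℂ E] (y : (Fin 4 ⊕ M) ⊕ Fin n → Pnt io E),
      prd (Sum.elim ![x₁, x₃, x₂, x₄] α) E (fun q => y (Sum.inl (σ q))) =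
        prd (Sum.elim ![x₁, x₂, x₃, x₄] α) E fun q => y (Sum.inl q) := fun E _ _ y => by
    rw [prd, prd, ← σ.prod_comp fun q => Sum.elim ![x₁, x₂, x₃, x₄] α q E (y (Sum.inl q))]
    refine Finset.prod_congr rfl ?_
    rintro (i | q) -
    · fin_cases i <;> rfl
    · rfl
  simp only [ful_congr r3] at r2
  rw [map_zero, sub_zero] at r1
  rw [map_one, map_sub, map_one, ← bal hB (n2 ξ hz (Vb37.nrmUp_mono hN ((le_max_right _ _).trans
    (le_max_left _ _)))) hon (MCls.prd (by rintro (i | q); exacts [c1 i, hα q]))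
    ((_root_.map_ne_zero θ).2 (by simpa using hne 0))
    (by rw [← map_one θ, ← map_sub, _root_.map_ne_zero, sub_ne_zero]; simpa using hne 1), r1] at r2
  exact mul_left_cancel₀ (Nat.cast_ne_zero.2 hθ.ne') (neg_injective r2)

end Crest.Agent.X262.Wv65
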