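import Crest.Agent.X262.Sym65.Two
import Crest.Agent.X262.Vb.Loc
import Crest.Agent.X262.Vb37.Univ
import Crest.Agent.X262.Wd54.Lat

/-!
# Row 262, road B, WDVV1 (helper65), part 0

* `cut_ful` : the cut of the virtual integrand by a divisorial valuation is the number of the
  reduced configuration;
* `bal` : the divisors `t = 0` and `t = 1` give the same number;
* `gw_equiv`, `gw_prd`, `gw_junk` : relabelling of the marks, degrees without data.
-/

set_option autoImplicit false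
set_option linter.unusedSectionVars false

noncomputable section

namespace Crest.Agent.X262.Wv65

open Crest.Agent.X277 Crest.Agent.X277.BD Crest.Agent.X277.Pst Crest.Agent.X277.BD.Cyc Polynomial
open Crest.Agent.X262.Geo (od od_eq_zero essFT_Rf)
open Crest.Agent.X262.Hb Crest.Agent.X262.Vb
open Crest.Agent.X262.Sym65 (PF PX Liv Sup sm cf i1 i2 cut qv Fs)
open Crest.Agent.X262.Wd54 (ful)

variable {J : Type} [Fintype J] [DecidableEq J] {io : J → Type} [∀ j, Fintype (io j)]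
  [∀ j, DecidableEq (io j)] {A : Type} [Fintype A] {B : Th} {T : Tgt io A}

section Cut

variable {I M M' K : Type} [Fintype I] [Field K] [Algebra ℂ K] {z : Cfg io I K} {m : M → I}
  {Φ : MFam B io M}

theorem ful_congr {m' : M' → I} {Ψ : MFam B io M'}
    (h : ∀ (E : Type) [Field E] [Algebra ℂ E] (y : I → Pnt io E),
      Φ E (fun q => y (m q)) = Ψ E fun q => y (m' q)) (ω : B.H K) :
    ful B T z m Φ ω = ful B T z m' Ψ ω := by
  unfold ful trm
  simp only [h]

variable [Algebra.EssFiniteType ℂ K]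

/-- the cut of the virtual integrand is the number of the reduced configuration -/
theorem cut_ful (hB : B.Ax) (hR : Rk T z) (hO : ¬z.On T) (hΦ : MCls B T Φ) {W : RZ ℂ K}
    (hW : Dvs W) : cut (z.dv T) (qv (cpF B T z) (cf B (z.dv T)) * evF z m Φ) W =
      ful B T (z.red (plV W)) m Φ 1 := by
  have := essFT_Rf hW
  have hz := hR.nz
  have h1 := Cfg.on_red_iff T (lnr_plV W) hz hO
  unfold cut ful
  by_cases h : (z.dv T).val W = 1
  · have h2 : ¬(z.red (plV W)).On T := fun h2 => h1.1 h2 h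
    have h3 := Cfg.dv_red T (lnr_plV W) hz h2
    rw [if_pos h, if_neg h2, ← h3]
    refine Sym65.sm_congr fun U hU h4 => ?_
    have := essFT_Rf hU
    have h5 : Cfg.Geq (z.red ((LP.at W).comp (LP.at U)).toPl) ((z.red (plV W)).red (plV U)) :=
      Cfg.red_comp (LP.at W) (LP.at U) hz
    have h7 : B.c1 ((plV W).res (z.dv T)) = B.pb (LP.at W) (B.c1 (z.dv T)) :=
      (hB.pb_c1_res (LP.at W) h).symm
    have h6 : ((z.red (plV W)).red (plV U)).On T :=
      on_at (hz.red _) ((od_eq_zero hU).not.1 h4)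
    rw [map_one, one_mul, i2, trm, exc_geq hB h5 (hz.red _),
      hΦ.geq h5 (hz.red _) ((h5.on T).1 h6), h3, h7, ← hB.pb_comp]
    rfl
  · have h2 := h1.2 h
    rw [if_neg h, if_pos h2, one_mul, i1]
    have h3 := hR.root hB hO (p := LP.at W) h2
    have h4 := Sym65.eval_divX (cpF B T z _ (LP.at W)) (cf B (z.dv T) _ (LP.at W))
    rw [h3, sub_zero] at h4
    change B.itg _ (_ * (_ * _)) = B.itg _ ((cpF B T z _ (LP.at W)).eval 0 * _)
    rw [← h4, mul_assoc]
    rfl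

theorem pr_sup (t : K) (h0 : t ≠ 0) (h1 : t - 1 ≠ 0) : pr ℂ t ⊔ 0 = pr ℂ (t - 1) ⊔ 0 := by
  refine ext' fun W => ?_
  rw [val_sup, val_sup, val_pr h0, val_pr h1, val_zero]
  rcases le_or_gt (W.v t) 1 with h | h
  · rw [max_eq_right h, max_eq_right ((W.v.map_sub _ _).trans (max_le h (map_one W.v).le))]
  · rw [W.v.map_sub_eq_of_lt_left (by rwa [map_one])]

/-- the divisors `t = 0` and `t = 1` carry the same number -/
theorem bal (hB : B.Ax) (hR : Rk T z) (hO : ¬z.On T) (hΦ : MCls B T Φ) {t : K} (h0 : t ≠ 0)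
    (h1 : t - 1 ≠ 0) : (sm (pr ℂ t ⊓ 0) fun W => ful B T (z.red (plV W)) m Φ 1) =
      sm (pr ℂ (t - 1) ⊓ 0) fun W => ful B T (z.red (plV W)) m Φ 1 := by
  have hL := (hR.liv hB hΦ m (z.dv T)).mono (sup_sub hR.nz)
  have hD := Cfg.dv_nonneg T hR.nz
  have key : ∀ s : K, (sm (pr ℂ s ⊓ 0) fun W => ful B T (z.red (plV W)) m Φ 1) =
      -sm (pr ℂ s ⊔ 0) (cut (z.dv T) (qv (cpF B T z) (cf B (z.dv T)) * evF z m Φ)) := fun s => by
    have h2 := Sym65.sm_pr_cut hB hD hL s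
    rw [← add_zero (pr ℂ s), ← inf_add_sup, Sym65.sm_add_left (Sym65.fin_cut hB hD hL _)
      (Sym65.fin_cut hB hD hL _)] at h2
    rw [← eq_neg_of_add_eq_zero_left h2]
    exact Sym65.sm_congr fun W hW _ => (cut_ful hB hR hO hΦ hW).symm
  rw [key, key, pr_sup t h0 h1]

end Cut

section Gw

variable {d : J → ℕ} {M M' : Type} [Fintype M] [Fintype M']

theorem isGW_equiv (e : M ≃ M') {Φ : MFam B io M} {Ψ : MFam B io M'}
    (h : ∀ (E : Type) [Field E] [Algebra ℂ E] (y : M' → Pnt io E), Ψ E y = Φ E fun q => y (e q))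
    {v : ℂ} (hv : IsGW B T d Φ v) : IsGW B T d Ψ v := by
  obtain ⟨N, hN⟩ := hv
  refine ⟨N, fun K K₀ I _ _ _ _ _ _ _ ξ m θ ⟨ξ₀, h0, h1⟩ hξ => ?_⟩
  rw [← hN K K₀ I ξ (fun q => m (e q)) θ ⟨ξ₀.res e, Vb37.univ_res_equiv h0 e, ?_⟩ hξ]
  · unfold vir trm
    simp only [h]
  · obtain ⟨g, c, a1, a2, a3, a4⟩ := h1
    exact ⟨g, c, a1, a2, a3, fun q => a4 (e q)⟩

/-- relabelling of the marks -/
theorem gw_equiv (e : M ≃ M') {Φ : MFam B io M} {Ψ : MFam B io M'}
    (h : ∀ (E : Type) [Field E] [Algebra ℂ E] (y : M' → Pnt io E), Ψ E y = Φ E fun q => y (e q)) :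
    GW B T d Ψ = GW B T d Φ := by
  have key : IsGW B T d Ψ = IsGW B T d Φ := funext fun v => propext
    ⟨isGW_equiv e.symm fun E _ _ y => by simp [h], isGW_equiv e h⟩
  unfold GW
  rw [key]

theorem gw_prd (e : M ≃ M') {α : M → Fam B io} {β : M' → Fam B io} (h : ∀ q, β (e q) = α q) :
    GW B T d (prd β) = GW B T d (prd α) :=
  gw_equiv e fun E _ _ y => by
    rw [prd, prd, ← e.prod_comp]
    simp only [h]

theorem not_cp {K : Type} [Field K] {f : (j : J) → io j → K[X]} (h : Cp d f) (j : J) :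
    Nonempty (io j) ∧ (d j = 0 ∨ Nontrivial (io j)) := by
  obtain ⟨i, hi⟩ := h.2.1 j
  refine ⟨⟨i⟩, by_contra fun h1 => ?_⟩
  rw [not_or, not_nontrivial_iff_subsingleton] at h1
  obtain ⟨h1, h2⟩ := h1
  have h3 := h.2.2 j
  rw [show Set.range (f j) = {f j i} from Set.eq_singleton_iff_unique_mem.2
    ⟨⟨i, rfl⟩, fun _ ⟨i', e⟩ => e ▸ congrArg _ (Subsingleton.elim _ _)⟩,
    Ideal.span_singleton_eq_top] at h3
  exact hi (coeff_eq_zero_of_natDegree_lt ((natDegree_eq_zero_of_isUnit h3).trans_lt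
    (Nat.pos_of_ne_zero h1)))

/-- no data, no invariant -/
theorem gw_junk {j : J} (h : ¬(Nonempty (io j) ∧ (d j = 0 ∨ Nontrivial (io j))))
    (Φ : MFam B io M) : GW B T d Φ = 0 := by
  have key : ∀ v, IsGW B T d Φ v := fun v =>
    ⟨0, fun _ _ _ _ _ _ _ _ _ _ ξ _ _ _ _ => (h (not_cp ξ.cp j)).elim⟩
  exact dif_neg fun ⟨_, _, h1⟩ => zero_ne_one ((h1 0 (key 0)).trans (h1 1 (key 1)).symm)

theorem wd_junk {j : J} (h : ¬(Nonempty (io j) ∧ (d j = 0 ∨ Nontrivial (io j)))) {ι : Type}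
    [Fintype ι] (e e' : ι → Fam B io) (x₁ x₂ x₃ x₄ : Fam B io) [DecidableEq M]
    (α : M → Fam B io) : wd B T d e e' x₁ x₂ x₃ x₄ α = 0 := by
  refine Finset.sum_eq_zero fun d₁ _ => Finset.sum_eq_zero fun S _ => Finset.sum_eq_zero
    fun l _ => ?_
  by_cases h1 : Nonempty (io j) ∧ (d₁ j = 0 ∨ Nontrivial (io j))
  · rw [gw3, gw3, gw_junk (d := d - d₁) (j := j), mul_zero]
    rintro ⟨-, h2⟩
    refine h ⟨h1.1, ?_⟩
    rcases h1.2 with h3 | h3
    · exact h2.imp_left fun h2 => by simpa [h3] using h2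
    · exact Or.inr h3
  · rw [gw3, gw_junk h1, zero_mul]

end Gw

end Crest.Agent.X262.Wv65
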