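import Crest.Agent.X262.Wv65.Main
import Crest.Agent.X262.Wd54.Spl
import Crest.Agent.X262.Cl49.Main
import Crest.Agent.X262.Ord20.Main
import Crest.Agent.X262.Am12.Main
import Crest.Agent.X262.Vb37.Nrm
import Crest.Agent.X262.Tree87.Rank
import Crest.Agent.X262.Prod33.Main
import Crest.Agent.X262.Vb.Ax0
import Crest.Agent.X262.Cht28.Main

/-!
# Row 262, road B, WDVV (helper65), part 2: the proved leaves are discharged
-/

set_option autoImplicit false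

namespace Crest.Agent.X262.Wv65

open Crest.Agent.X262.Vb

section Ad

variable {J : Type} [Fintype J] [DecidableEq J] {io : J → Type} [∀ j, Fintype (io j)]
  [∀ j, DecidableEq (io j)]

theorem dropU_of (h : Drop30.DropStmt io) : DropU io :=
  fun d N M I K L _ _ _ _ _ _ _ x₀ o a b e A R B hs _ θ ξ g h1 h2 W _ =>
    h d N M I K L x₀ o a b e A R B hs θ ξ g h1 h2 W

theorem genU_of (h : Drop30.GenStmt io) : GenU io :=
  fun d m n N M I K L k k' I₁ I₂ _ _ _ _ _ _ _ _ _ _ _ _ _ x₀ o a b e A R B S hs ht hu ι η₁ η₂ hc θ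
      ξ g h1 h2 γ ξ₁ ξ₂ g₁ g₂ a1 a2 a3 a4 a5 W hW _ =>
    h d m n N M I K L k k' I₁ I₂ x₀ o a b e A R B S hs (Vb37.univ_inj hu) ht ι η₁ η₂ hc θ ξ g h1 h2
      γ ξ₁ ξ₂ g₁ g₂ a1 a2 a3 a4 a5 W hW

end Ad

/-- SPLIT from NODE -/
theorem split_of2 (hN : Wd54.NodeStmt) : Wd54.SplitStmt :=
  Wd54.split_of ax0Stmt Vb37.exNrm hN (Prod33.prodStmt_of Sym65.twoStmt) Ord20.ordStmt
    Pbd43.pbdStmt Cl49.class2Stmt Cht28.chartStmt Cnt37.notOnStmt
    fun a₁ a₂ h θ₁ θ₂ h₁ h₂ =>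
      have := Wd.essFT_of_hom a₁
      have := Wd.essFT_of_hom a₂
      Am12.exists_amal2 h θ₁ θ₂ h₁ h₂

/-- WDVV from NODE, DROP, GEN, ORD -/
theorem wdvv_of2 (hN : Wd54.NodeStmt)
    (hD : ∀ {J : Type} [Fintype J] [DecidableEq J] (io : J → Type) [∀ j, Fintype (io j)]
      [∀ j, DecidableEq (io j)], DropU io)
    (hG : ∀ {J : Type} [Fintype J] [DecidableEq J] (io : J → Type) [∀ j, Fintype (io j)]
      [∀ j, DecidableEq (io j)], GenU io)
    (hO : ∀ {J : Type} [Fintype J] [DecidableEq J] (io : J → Type) [∀ j, Fintype (io j)]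
      [∀ j, DecidableEq (io j)], Drop30.OrdStmt io) : WdvvStmt :=
  wdvv_of (split_of2 hN) hD hG hO Vb37.exNrm Tree87.rankStmt

end Crest.Agent.X262.Wv65
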