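import Crest.Agent.X262.Wv65.Fin
import Crest.Agent.X262.Node22.Node
import Crest.Agent.X262.Gen42.Main

/-!
# Row 262, road B, WDVV (helper65), part 3: SPLIT and GEN are discharged
-/

set_option autoImplicit false

namespace Crest.Agent.X262.Wv65

open Crest.Agent.X262.Vb

/-- **SPLIT** -/
theorem splitStmt : Wd54.SplitStmt := split_of2 (Node22.nodeStmt_of Sym65.twoStmt)

/-- **GEN** -/
theorem genU {J : Type} [Fintype J] [DecidableEq J] (io : J → Type) [∀ j, Fintype (io j)]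
    [∀ j, DecidableEq (io j)] : GenU io :=
  fun d m n N M I K L k k' I₁ I₂ _ _ _ _ _ _ _ _ _ _ _ _ _ x₀ o a b e A R B S hs ht hu ι η₁ η₂ hc θ
      ξ g h1 h2 γ ξ₁ ξ₂ g₁ g₂ a1 a2 a3 a4 a5 W hW _ =>
    Gen42.genStmt2 d m n N M I K L k k' I₁ I₂ x₀ o a b e A R B S hs ht (Vb37.univ_inj hu) ι η₁ η₂
      hc θ ξ g h1 h2 γ ξ₁ ξ₂ g₁ g₂ a1 a2 a3 a4 a5 W hW

/-- WDVV from DROP and ORD -/
theorem wdvv_of3
    (hD : ∀ {J : Type} [Fintype J] [DecidableEq J] (io : J → Type) [∀ j, Fintype (io j)]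
      [∀ j, DecidableEq (io j)], DropU io)
    (hO : ∀ {J : Type} [Fintype J] [DecidableEq J] (io : J → Type) [∀ j, Fintype (io j)]
      [∀ j, DecidableEq (io j)], Drop30.OrdStmt io) : WdvvStmt :=
  wdvv_of2 (Node22.nodeStmt_of Sym65.twoStmt) hD genU hO

end Crest.Agent.X262.Wv65
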